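import Vale.Agent.P352.H48.Ln1
import Vale.Agent.P352.BW.Ln
import Vale.Agent.P352.BW.U
import Vale.Agent.P352.HM.Geo584
import Vale.Agent.P352.ND.C7b

/-!
# P352 BW: the regularity of one region suffices
-/

set_option linter.all false

noncomputable section

open MeasureTheory Filter Topology
open scoped ComplexConjugate InnerProductSpace

namespace Vale.Agent.P352.BW

open GF H246 H496 H755 H15
open UniformSpace (Completion)

namespace Reg1

variable {D : Type*} [NormedAddCommGroup D] [InnerProductSpace ℂ D] {Q : Theory D}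
  {A : (V → V) → D → D} {𝒜 : Set V → VonNeumannAlgebra (Completion D)}

section transport

variable {H : Type*} [NormedAddCommGroup H] [InnerProductSpace ℂ H] [CompleteSpace H]

/-- transport of modular unitaries by a unitary operator -/
theorem isMod_tr {M M' : VonNeumannAlgebra H} {ξ : H} {V : ℝ → H → H} {J : H → H}
    (W : H ≃ₗᵢ[ℂ] H) (hξ : W ξ = ξ) (h1 : ∀ X ∈ M, ∃ Y ∈ M', ∀ z, Y (W z) = W (X z))
    (h2 : ∀ Y ∈ M', ∃ X ∈ M, ∀ z, Y (W z) = W (X z)) (h : IsMod M' ξ V J) :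
    IsMod M ξ (fun t z => W.symm (V t (W z))) (fun z => W.symm (J (W z))) := by
  have hξ' : W.symm ξ = ξ := by rw [← hξ, W.symm_apply_apply, hξ]
  have hi : ∀ x y : H, inner ℂ (W.symm x) y = inner ℂ x (W y) := by
    intro x y
    rw [← W.inner_map_map, W.apply_symm_apply]
  have hi' : ∀ x y : H, inner ℂ y (W.symm x) = inner ℂ (W y) x := by
    intro x y
    rw [← W.inner_map_map, W.apply_symm_apply]
  refine
    { inn := fun t x y => ?_
      add := fun s t x => ?_
      cont := fun x => ?_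
      vac := fun t => ?_
      inv := fun t X hX => ?_
      jinn := fun x y => ?_
      jj := fun x => ?_
      jv := fun t x => ?_
      kms := fun X hX y => ?_ }
  · rw [W.symm.inner_map_map, h.inn, W.inner_map_map]
  · simp only [W.apply_symm_apply, h.add]
  · exact W.symm.continuous.comp (h.cont (W x))
  · simp only [hξ, h.vac, hξ']
  · obtain ⟨X1, hX1, e1⟩ := h1 X hX
    obtain ⟨Y1, hY1, e2⟩ := h.inv t X1 hX1
    obtain ⟨Y, hY, e3⟩ := h2 Y1 hY1
    refine ⟨Y, hY, fun x => ?_⟩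
    apply W.injective
    rw [← e3, W.apply_symm_apply, W.apply_symm_apply, e2, e1]
  · rw [W.symm.inner_map_map, h.jinn, W.inner_map_map]
  · simp only [W.apply_symm_apply, h.jj, W.symm_apply_apply]
  · simp only [W.apply_symm_apply, h.jv]
  · obtain ⟨X1, hX1, e1⟩ := h1 X hX
    have e2 : ∀ z, star X1 (W z) = W (star X z) := by
      intro z
      refine ext_inner_left ℂ fun u => ?_
      obtain ⟨u', rfl⟩ := W.surjective u
      rw [ContinuousLinearMap.star_eq_adjoint, ContinuousLinearMap.adjoint_inner_right, e1,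
        W.inner_map_map, W.inner_map_map, ContinuousLinearMap.star_eq_adjoint,
        ContinuousLinearMap.adjoint_inner_right]
    obtain ⟨F, hF, hb, hv⟩ := h.kms X1 hX1 (W y)
    refine ⟨F, hF, hb, fun t => ⟨?_, ?_⟩⟩
    · rw [(hv t).1, hi', ← e1, hξ]
    · rw [(hv t).2, hi', W.apply_symm_apply, ← e2, hξ]

end transport

/-- the images of regions under a similitude and its inverse -/
lemma img_inv {s : ℝ} {L : Ix → V} (hs : 0 < s) (hL : IsLor L) (y : V) (O : Set V) :
    sim s⁻¹ (linv L) (-(sim s⁻¹ (linv L) 0 y)) '' (sim s L y '' O) = O := by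
  have hinj : ∀ x x' : V, sim s L y x = sim s L y x' → x = x' := by
    intro x x' h
    have e : ∀ x, sim s L y x = y + sim s L 0 x := by
      intro x
      funext n
      simp [sim]
    rw [e, e] at h
    have h' := add_left_cancel h
    rw [← H755.simE_apply hs hL, ← H755.simE_apply hs hL] at h'
    exact (simE s L hs hL).injective h'
  have key : ∀ x, sim s⁻¹ (linv L) (-(sim s⁻¹ (linv L) 0 y)) (sim s L y x) = x := by
    intro x
    apply hinj
    exact ue_sim hs hL y _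
  ext x
  constructor
  · rintro ⟨_, ⟨z, hz, rfl⟩, rfl⟩
    rw [key]
    exact hz
  · intro hx
    exact ⟨_, ⟨x, hx, rfl⟩, key x⟩

/-- the regularity of one region -/
def Reg (Q : Theory D) (M : VonNeumannAlgebra (Completion D)) : Prop :=
  ∀ V J (v : D), IsMod M (om Q) V J → ∃ w : D,
    HasDerivAt (fun t : ℝ => V t (v : Completion D)) ((w : D) : Completion D) 0

/-- covariance of the regularity -/
theorem reg_tr (R : Rep Q A)
    (cov : ∀ s L y O, ∀ X ∈ 𝒜 O, 0 < s → IsLor L →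
      ∃ Y ∈ 𝒜 (sim s L y '' O), ∀ z, Y (Ue Q s L y z) = Ue Q s L y (X z))
    {s : ℝ} {L : Ix → V} (hs : 0 < s) (hL : IsLor L) (y : V) (O : Set V)
    (h : Reg Q (𝒜 O)) : Reg Q (𝒜 (sim s L y '' O)) := by
  intro V' J' v hM
  have hU := ublock (A := A) R
  obtain ⟨W, hW⟩ := hU.lin s L y hs hL
  have hξ : W (om Q) = om Q := by rw [hW, hU.vac s L y hs hL]
  set s' := s⁻¹ with hs'
  set L' := linv L with hL'
  set y' := -(sim s⁻¹ (linv L) 0 y) with hy'
  have hinv : ∀ z, Ue Q s L y (Ue Q s' L' y' z) = z := fun z => ue_invC R hs hL y z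
  have hsy : ∀ z, W.symm z = Ue Q s' L' y' z := by
    intro z
    apply W.injective
    rw [W.apply_symm_apply, hW, hinv]
  have h1 : ∀ X ∈ 𝒜 O, ∃ Y ∈ 𝒜 (sim s L y '' O), ∀ z, Y (W z) = W (X z) := by
    intro X hX
    obtain ⟨Y, hY, e⟩ := cov s L y O X hX hs hL
    exact ⟨Y, hY, fun z => by rw [hW, hW, e]⟩
  have h2 : ∀ Y ∈ 𝒜 (sim s L y '' O), ∃ X ∈ 𝒜 O, ∀ z, Y (W z) = W (X z) := by
    intro Y hY
    obtain ⟨X, hX, e⟩ := cov s' L' y' _ Y hY (inv_pos.2 hs) (isLor_linv hL)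
    rw [img_inv hs hL] at hX
    refine ⟨X, hX, fun z => ?_⟩
    apply W.symm.injective
    rw [W.symm_apply_apply, hsy, ← e, ← hsy, W.symm_apply_apply]
  obtain ⟨v0, hv0⟩ : ∃ v0 : D, Q.U s L y v0 = v := ⟨_, ue_inv R hs hL y v⟩
  have hWv : W (v0 : Completion D) = (v : Completion D) := by
    rw [hW, ue_coe hs hL, hv0]
  obtain ⟨w, hw⟩ := h _ _ v0 (isMod_tr W hξ h1 h2 hM)
  refine ⟨Q.U s L y w, ?_⟩
  have h3 : HasDerivAt (fun t : ℝ => W (W.symm (V' t (W (v0 : Completion D)))))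
      (W (w : Completion D)) 0 :=
    (W.toContinuousLinearEquiv.toContinuousLinearMap.restrictScalars ℝ).hasFDerivAt.comp_hasDerivAt
      (0 : ℝ) hw
  simp only [W.apply_symm_apply, hWv] at h3
  rw [hW, ue_coe hs hL] at h3
  exact h3

lemma md (x y : V) : GF.mdot x y = x 0 * y 0 - x 1 * y 1 - x 2 * y 2 - x 3 * y 3 := by
  simp [GF.mdot, GF.eta, o, Fin.sum_univ_four]
  ring

lemma md_comm (x y : V) : GF.mdot x y = GF.mdot y x := by rw [md, md]; ring

lemma md_sub (x y z : V) : GF.mdot x (y - z) = GF.mdot x y - GF.mdot x z := by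
  simp only [md, Pi.sub_apply]; ring

lemma md_smul (x y : V) (c : ℝ) : GF.mdot x (c • y) = c * GF.mdot x y := by
  simp only [md, Pi.smul_apply, smul_eq_mul]; ring

lemma md_sub' (x y z : V) : GF.mdot (y - z) x = GF.mdot y x - GF.mdot z x := by
  simp only [md, Pi.sub_apply]; ring

lemma md_smul' (x y : V) (c : ℝ) : GF.mdot (c • y) x = c * GF.mdot y x := by
  simp only [md, Pi.smul_apply, smul_eq_mul]; ring

/-- the Lorentz group acts transitively on the pairs of null vectors with `a·b = 1` -/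
theorem reg_all (R : Rep Q A)
    (cov : ∀ s L y O, ∀ X ∈ 𝒜 O, 0 < s → IsLor L →
      ∃ Y ∈ 𝒜 (sim s L y '' O), ∀ z, Y (Ue Q s L y z) = Ue Q s L y (X z))
    {a0 b0 a b : V} (ha0 : IsNull a0) (hb0 : IsNull b0) (hab0 : GF.mdot a0 b0 = 1)
    (ha : IsNull a) (hb : IsNull b) (hab : GF.mdot a b = 1)
    (h : Reg Q (𝒜 (HM.Rg a0 b0 1))) : Reg Q (𝒜 (HM.Rg a b 1)) := by
  obtain ⟨n, w, r, hn, hw, hr, hL1⟩ := ND.exists_nrt ha0 ha
  have hL := H746.isLor_nrt hn hw
  set L := H746.nrt n w with hLd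
  have g1 : ∀ x y : V, GF.mdot (sim 1 L 0 x) (sim 1 L 0 y) = GF.mdot x y := fun x y =>
    mdot_sim hL x y
  set b1 : V := r • sim 1 L 0 b0 with hb1
  have i1 : sim r L 0 '' HM.Rg a0 b0 1 = HM.Rg a b1 1 := by
    rw [HM.H584.Rg_img hab0 hr hr hL hL1, div_self hr.ne', one_mul]
  have e1 : GF.mdot b1 b1 = 0 := by
    rw [hb1, Reg1.md_smul, Reg1.md_smul', g1, hb0.1]
    ring
  have e2 : GF.mdot a b1 = 1 := by
    rw [hb1, Reg1.md_smul, ← Reg1.md_smul', ← hL1, g1, hab0]
  have k1 : Reg Q (𝒜 (HM.Rg a b1 1)) := by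
    rw [← i1]
    exact reg_tr R cov hr hL 0 _ h
  have hba : GF.mdot b1 a = 1 := by rw [Reg1.md_comm, e2]
  obtain ⟨w', hw'⟩ : ∃ w', w' = (1 / 2 : ℝ) • (b - b1 - GF.mdot b1 b • a) := ⟨_, rfl⟩
  have haw : GF.mdot a w' = 0 := by
    rw [hw']
    simp only [Reg1.md_smul, Reg1.md_sub, Reg1.md_smul', Reg1.md_sub', hab, e2, ha.1]
    ring
  have hbw : GF.mdot b1 w' = 0 := by
    rw [hw']
    simp only [Reg1.md_smul, Reg1.md_sub, Reg1.md_smul', Reg1.md_sub', e1, hba]
    ring
  have hww : GF.mdot w' w' = -(1 / 2) * GF.mdot b1 b := by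
    rw [hw']
    simp only [Reg1.md_smul, Reg1.md_sub, Reg1.md_smul', Reg1.md_sub', e1, hb.1, ha.1, hab, e2, hba,
      Reg1.md_comm b b1, Reg1.md_comm b a]
    ring
  have hL2 := H746.isLor_nrt ha haw
  have hLa : sim 1 (H746.nrt a w') 0 a = (1 : ℝ) • a := by
    rw [H746.nrt_fix ha haw, one_smul]
  have hLb : (1 : ℝ) • sim 1 (H746.nrt a w') 0 b1 = b := by
    rw [H746.sim_nrt, Reg1.md_comm w' b1, hbw, e2, hww, hw']
    module
  have i2 : sim 1 (H746.nrt a w') 0 '' HM.Rg a b1 1 = HM.Rg a b 1 := by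
    rw [HM.H584.Rg_img e2 one_pos one_pos hL2 hLa, hLb, div_one, one_mul]
  rw [← i2]
  exact reg_tr R cov one_pos hL2 0 _ k1

end Reg1

variable {D : Type*} [NormedAddCommGroup D] [InnerProductSpace ℂ D] {Q : Theory D}
  {A : (V → V) → D → D} {𝒜 : Set V → VonNeumannAlgebra (Completion D)}

/-- **The regularity of one region suffices.** -/
theorem LNt1.lnt (h : LNt1 Q A 𝒜) : LNt Q A 𝒜 :=
  { h.toRep with
    fld := h.fld
    mono := h.mono
    cov := h.cov
    loc := h.loc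
    reg := fun a b V J v ha hb hab hM => by
      obtain ⟨a0, b0, ha0, hb0, hab0, h0⟩ := h.reg
      exact Reg1.reg_all h.toRep h.cov ha0 hb0 hab0 ha hb hab h0 V J v hM }

/-- conversely, the regularity of all regions gives that of one of them -/
theorem LNt.lnt1 (h : LNt Q A 𝒜) {a b : V} (ha : IsNull a) (hb : IsNull b)
    (hab : GF.mdot a b = 1) : LNt1 Q A 𝒜 :=
  { h.toRep with
    fld := h.fld
    mono := h.mono
    cov := h.cov
    loc := h.loc
    reg := ⟨a, b, ha, hb, hab, fun V J v hM => h.reg a b V J v ha hb hab hM⟩ }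

end Vale.Agent.P352.BW

end
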