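import Mathlib

/-! # P352 HM, block A5: the Cauchy-Schwarz inequality for Gaussian averages, Mathlib only -/

open MeasureTheory Filter Topology

noncomputable section

namespace Vale.Agent.P352.H48

section

set_option linter.unusedSectionVars false

variable {E : Type*} [NormedAddCommGroup E] [InnerProductSpace ℂ E] [CompleteSpace E]

lemma integrable_inner_prod {Φ Ψ : ℝ → E} (hΦ : Integrable Φ) (hΨ : Integrable Ψ) :
    Integrable (fun p : ℝ × ℝ => (inner ℂ (Φ p.1) (Ψ p.2) : ℂ)) := by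
  have h1 : Integrable (fun p : ℝ × ℝ => ‖Φ p.1‖ * ‖Ψ p.2‖) := by
    rw [Measure.volume_eq_prod]
    exact hΦ.norm.mul_prod hΨ.norm
  refine h1.mono' ?_ (Eventually.of_forall fun p => norm_inner_le_norm _ _)
  rw [Measure.volume_eq_prod]
  exact (hΦ.1.comp_fst).inner (hΨ.1.comp_snd)

lemma integral_inner_prod {Φ Ψ : ℝ → E} (hΦ : Integrable Φ) (hΨ : Integrable Ψ) :
    ∫ p : ℝ × ℝ, (inner ℂ (Φ p.1) (Ψ p.2) : ℂ) = inner ℂ (∫ τ, Φ τ) (∫ τ, Ψ τ) := by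
  have h0 := integrable_inner_prod hΦ hΨ
  rw [Measure.volume_eq_prod] at h0 ⊢
  rw [integral_prod _ h0]
  have h1 : ∀ x : ℝ, ∫ y : ℝ, (inner ℂ (Φ x) (Ψ y) : ℂ) = inner ℂ (Φ x) (∫ τ, Ψ τ) :=
    fun x => integral_inner hΨ (Φ x)
  simp only [h1]
  have h2 : ∀ x : ℝ, (inner ℂ (Φ x) (∫ τ, Ψ τ) : ℂ) =
      starRingEnd ℂ (inner ℂ (∫ τ, Ψ τ) (Φ x)) := fun x => (inner_conj_symm _ _).symm
  simp only [h2]
  rw [integral_conj, integral_inner hΦ, inner_conj_symm]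

end

variable {D : Type*} [NormedAddCommGroup D] [InnerProductSpace ℂ D]

/-- the weighted vector -/
def wv (m t : ℝ) (φ : ℝ → D) (τ : ℝ) : UniformSpace.Completion D :=
  ((Real.exp (-m * (τ + t) ^ 2) : ℝ) : ℂ) • (φ τ : UniformSpace.Completion D)

lemma integrable_w (m t : ℝ) (hm : 0 < m) :
    Integrable (fun τ : ℝ => Real.exp (-m * (τ + t) ^ 2)) :=
  (integrable_exp_neg_mul_sq hm).comp_add_right t

lemma integrable_wv (m t : ℝ) (hm : 0 < m) (φ : ℝ → D) (hc : Continuous φ)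
    (hb : ∃ C, ∀ τ, ‖φ τ‖ ≤ C) : Integrable (wv m t φ) := by
  obtain ⟨C, hC⟩ := hb
  refine ((integrable_w m t hm).mul_const C).mono' ?_ (Eventually.of_forall fun τ => ?_)
  · apply Continuous.aestronglyMeasurable
    unfold wv
    exact (Complex.continuous_ofReal.comp (by fun_prop)).smul
      ((UniformSpace.Completion.continuous_coe D).comp hc)
  · show ‖((Real.exp (-m * (τ + t) ^ 2) : ℝ) : ℂ) • (φ τ : UniformSpace.Completion D)‖ ≤ _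
    rw [norm_smul, Complex.norm_real, Real.norm_eq_abs, abs_of_pos (Real.exp_pos _),
      UniformSpace.Completion.norm_coe]
    exact mul_le_mul_of_nonneg_left (hC τ) (Real.exp_pos _).le

lemma dg_eq (m t : ℝ) (hm : 0 < m) (φ ψ : ℝ → D) (hc : Continuous φ) (hc' : Continuous ψ)
    (hb : ∃ C, ∀ τ, ‖φ τ‖ ≤ C) (hb' : ∃ C, ∀ τ, ‖ψ τ‖ ≤ C) :
    ∫ p : ℝ × ℝ, (((m / Real.pi : ℝ) : ℂ) * Complex.exp (-(m : ℂ) * ((p.1 : ℂ) + (t : ℂ)) ^ 2) *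
      Complex.exp (-(m : ℂ) * ((p.2 : ℂ) + (t : ℂ)) ^ 2)) * inner ℂ (φ p.1) (ψ p.2) =
      ((m / Real.pi : ℝ) : ℂ) * inner ℂ (∫ τ, wv m t φ τ) (∫ τ, wv m t ψ τ) := by
  rw [← integral_inner_prod (integrable_wv m t hm φ hc hb) (integrable_wv m t hm ψ hc' hb'),
    ← integral_const_mul]
  refine integral_congr_ae (Eventually.of_forall fun p => ?_)
  show _ = ((m / Real.pi : ℝ) : ℂ) * inner ℂ
    (((Real.exp (-m * (p.1 + t) ^ 2) : ℝ) : ℂ) • (φ p.1 : UniformSpace.Completion D))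
    (((Real.exp (-m * (p.2 + t) ^ 2) : ℝ) : ℂ) • (ψ p.2 : UniformSpace.Completion D))
  rw [inner_smul_left, inner_smul_right, Complex.conj_ofReal,
    UniformSpace.Completion.inner_coe]
  push_cast
  ring

theorem a5core (φ ψ : ℝ → D) (m t : ℝ) (hm : 0 < m) (hc : Continuous φ) (hc' : Continuous ψ)
    (hb : ∃ C, ∀ τ, ‖φ τ‖ ≤ C) (hb' : ∃ C, ∀ τ, ‖ψ τ‖ ≤ C) (F : (ℝ × ℝ → ℂ) → ℂ)
    (hF : ∀ k, F k = ∫ p : ℝ × ℝ, (((m / Real.pi : ℝ) : ℂ) *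
      Complex.exp (-(m : ℂ) * ((p.1 : ℂ) + (t : ℂ)) ^ 2) *
      Complex.exp (-(m : ℂ) * ((p.2 : ℂ) + (t : ℂ)) ^ 2)) * k p) :
    0 ≤ (F (fun p => inner ℂ (φ p.1) (φ p.2))).re ∧
    (F (fun p => inner ℂ (φ p.1) (φ p.2))).im = 0 ∧
    ‖F (fun p => inner ℂ (φ p.1) (ψ p.2))‖ ^ 2 ≤
      (F (fun p => inner ℂ (φ p.1) (φ p.2))).re * (F (fun p => inner ℂ (ψ p.1) (ψ p.2))).re := by
  have hπ : 0 ≤ m / Real.pi := div_nonneg hm.le Real.pi_pos.le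
  have h1 : ∀ φ : ℝ → D, Continuous φ → (∃ C, ∀ τ, ‖φ τ‖ ≤ C) →
      F (fun p => inner ℂ (φ p.1) (φ p.2)) =
        ((m / Real.pi * ‖∫ τ, wv m t φ τ‖ ^ 2 : ℝ) : ℂ) := by
    intro φ hc hb
    rw [hF, dg_eq m t hm φ φ hc hc hb hb, inner_self_eq_norm_sq_to_K]
    push_cast
    rfl
  rw [h1 φ hc hb, h1 ψ hc' hb', Complex.ofReal_re, Complex.ofReal_re, Complex.ofReal_im]
  refine ⟨mul_nonneg hπ (sq_nonneg _), rfl, ?_⟩
  rw [hF, dg_eq m t hm φ ψ hc hc' hb hb', norm_mul, Complex.norm_real, Real.norm_eq_abs,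
    abs_of_nonneg hπ]
  have h2 := norm_inner_le_norm (𝕜 := ℂ) (∫ τ, wv m t φ τ) (∫ τ, wv m t ψ τ)
  calc (m / Real.pi * ‖(inner ℂ (∫ τ, wv m t φ τ) (∫ τ, wv m t ψ τ) : ℂ)‖) ^ 2
      ≤ (m / Real.pi * (‖∫ τ, wv m t φ τ‖ * ‖∫ τ, wv m t ψ τ‖)) ^ 2 := by
        apply pow_le_pow_left₀ (by positivity)
        exact mul_le_mul_of_nonneg_left h2 hπ
    _ = _ := by ring

end Vale.Agent.P352.H48
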