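import Vale.Agent.P352.H246.Part

/-!
# P352 BWT: the theorem of Reeh and Schlieder for closed subspaces
-/

set_option linter.all false

noncomputable section

open MeasureTheory SchwartzMap Complex Filter Topology
open scoped SchwartzMap ComplexConjugate ENNReal LineDeriv NNReal

namespace Vale.Agent.P352.H48

open GF (Ix V Fn Sch ev pd bar sim one bas o)
open H246
open UniformSpace (Completion)

variable {D : Type*} [NormedAddCommGroup D] [InnerProductSpace ℂ D]
variable {Q : GF.Theory D}

theorem u1_cont (a : Mink) : Continuous (U1 Q a) := by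
  refine continuous_iff_continuousAt.2 fun v => ?_
  rw [ContinuousAt, tendsto_iff_norm_sub_tendsto_zero]
  have : (fun w => ‖U1 Q a w - U1 Q a v‖) = fun w => ‖w - v‖ := by
    funext w
    rw [← U1_sub, U1_norm]
  rw [this]
  exact tendsto_iff_norm_sub_tendsto_zero.1 (continuous_id.tendsto v)

theorem u1_fld {B : GF.Fld D} (hB : Q.fld B) (g : 𝓢(Mink, ℂ)) (a : Mink) (v : D) :
    U1 Q a (B (fl g) v) = B (fl (tauS a g)) (U1 Q a v) := U_fld hB g a v

/-- local step: test functions with small support -/
theorem rs_loc {B : GF.Fld D} (hB : Q.fld B) {O : Set Mink} (hO : IsOpen O) (hne : O.Nonempty)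
    (K : Submodule ℂ (Completion D)) (hK : IsClosed (K : Set (Completion D)))
    (h1 : ∀ g (v : D), IsTest O g → (v : Completion D) ∈ K →
      ((B (fl g) v : D) : Completion D) ∈ K) (v : D)
    (hv : ∀ a, ((U1 Q a v : D) : Completion D) ∈ K) (x : Mink) :
    ∃ U, IsOpen U ∧ x ∈ U ∧ ∀ f, IsTest U f → ∀ a,
      ((U1 Q a (B (fl f) v) : D) : Completion D) ∈ K := by
  obtain ⟨c, hc⟩ := hne
  obtain ⟨r, hr, hrO⟩ := Metric.isOpen_iff.1 hO c hc
  refine ⟨Metric.ball x (r / 2), Metric.isOpen_ball, Metric.mem_ball_self (half_pos hr),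
    fun f hf a => ?_⟩
  have hcl : K = Kᗮᗮ := by
    rw [Submodule.orthogonal_orthogonal_eq_closure, hK.submodule_topologicalClosure_eq]
  rw [hcl, Submodule.mem_orthogonal]
  intro y hy
  have hol : Hol fun a => inner ℂ y ((U1 Q a (B (fl f) v) : D) : Completion D) :=
    hol_vec y (B (fl f) v)
  refine hol.unique (O := Metric.ball (c - x) (r / 2)) Metric.isOpen_ball
    ⟨_, Metric.mem_ball_self (half_pos hr)⟩ (fun b hb => ?_) a
  rw [Submodule.mem_orthogonal] at hy
  have h2 : ((U1 Q b (B (fl f) v) : D) : Completion D) ∈ K := by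
    rw [u1_fld hB]
    refine h1 _ _ (hf.tauS b fun z hz => ?_) (hv b)
    apply hrO
    rw [Metric.mem_ball, dist_eq_norm] at hz hb ⊢
    have e : z + b - c = (z - x) + (b - (c - x)) := by abel
    rw [e]
    calc _ ≤ ‖z - x‖ + ‖b - (c - x)‖ := norm_add_le _ _
      _ < r / 2 + r / 2 := add_lt_add hz hb
      _ = r := add_halves r
  have h3 := hy _ h2
  rw [← inner_conj_symm, h3, map_zero]

/-- **The theorem of Reeh and Schlieder for closed subspaces.** `𝓕` is a class of fields that
generate a dense set of vectors from the vacuum. A closed subspace of the Hilbert space that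
contains the vacuum and is stable under the fields of the class `𝓕` smeared in a nonempty open
region `O` is the whole space. -/
theorem rs_sub {𝓕 : GF.Fld D → Prop} (hF : ∀ B, 𝓕 B → Q.fld B)
    (hd : ∀ S : Submodule ℂ D, Q.vac ∈ S →
      (∀ B f v, 𝓕 B → GF.IsTest f → v ∈ S → B f v ∈ S) → Dense (S : Set D))
    {O : Set V} (hO : IsOpen O) (hne : O.Nonempty) (K : Submodule ℂ (Completion D))
    (hK : IsClosed (K : Set (Completion D))) (h0 : (Q.vac : Completion D) ∈ K)
    (h1 : ∀ B f (v : D), 𝓕 B → In O f → (v : Completion D) ∈ K →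
      ((B f v : D) : Completion D) ∈ K) : K = ⊤ := by
  have hO' : IsOpen (MW O) := hO.preimage (PiLp.continuous_ofLp 2 _)
  have hne' : (MW O).Nonempty := by
    obtain ⟨x, hx⟩ := hne
    exact ⟨WithLp.toLp 2 x, hx⟩
  set S : Submodule ℂ D :=
    { carrier := {v | U1 Q 0 v = v ∧ ∀ a, ((U1 Q a v : D) : Completion D) ∈ K}
      add_mem' := by
        rintro v w ⟨h2, h3⟩ ⟨h4, h5⟩
        refine ⟨by rw [U1_add, h2, h4], fun a => ?_⟩
        rw [U1_add, Completion.coe_add]
        exact K.add_mem (h3 a) (h5 a)
      zero_mem' := by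
        have h2 : ∀ a, U1 Q a (0 : D) = 0 := fun a => by
          have := U1_smul (Q := Q) a 0 0
          rwa [zero_smul, zero_smul] at this
        refine ⟨h2 0, fun a => ?_⟩
        rw [h2, Completion.coe_zero]
        exact K.zero_mem
      smul_mem' := by
        rintro c v ⟨h2, h3⟩
        refine ⟨by rw [U1_smul, h2], fun a => ?_⟩
        rw [U1_smul, Completion.coe_smul]
        exact K.smul_mem c (h3 a) } with hS
  have hden : Dense (S : Set D) := by
    apply hd S
    · refine ⟨U1_vac 0, fun a => ?_⟩
      rw [U1_vac]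
      exact h0
    · rintro B f v hB hf ⟨hv0, hv⟩
      have hBf := hF B hB
      obtain ⟨F, rfl⟩ := exists_fl hf
      refine ⟨?_, fun a => ?_⟩
      · rw [u1_fld hBf, hv0]
        congr 2
        ext x
        simp [tauS_apply]
      · obtain ⟨g, hg, hlim⟩ := exists_compact_seq F
        have h2 : ∀ n, ((U1 Q a (B (fl (g n)) v) : D) : Completion D) ∈ K := by
          intro n
          obtain ⟨U, hU, hKU, h⟩ := part_induct (P := fun f => ∀ a,
              ((U1 Q a (B (fl f) v) : D) : Completion D) ∈ K)
            (fun a => by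
              rw [fld_zero hBf]
              have := U1_smul (Q := Q) a 0 0
              rw [zero_smul, zero_smul] at this
              rw [this, Completion.coe_zero]
              exact K.zero_mem)
            (fun f g _ _ hf hg a => by
              rw [fld_addf hBf, U1_add, Completion.coe_add]
              exact K.add_mem (hf a) (hg a))
            (hg n).isCompact
            (fun x _ => rs_loc hBf hO' hne' K hK
              (fun g v hg hv => h1 B (fl g) v hB (In_fl.2 hg) hv) v hv x)
          exact h (g n) ⟨hg n, hKU⟩ a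
        have h3 : Tendsto (fun n => ((U1 Q a (B (fl (g n)) v) : D) : Completion D)) atTop
            (𝓝 ((U1 Q a (B (fl F) v) : D) : Completion D)) :=
          (((Completion.continuous_coe D).comp (u1_cont a)).tendsto _).comp
            (((fld_cont hBf v).tendsto F).comp hlim)
        exact hK.mem_of_tendsto h3 (Eventually.of_forall h2)
  rw [eq_top_iff]
  rintro z -
  have h2 : Dense ((fun v : D => (v : Completion D)) '' (S : Set D)) :=
    (Completion.denseRange_coe (α := D)).dense_image (Completion.continuous_coe D) hden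
  have h3 : (fun v : D => (v : Completion D)) '' (S : Set D) ⊆ (K : Set (Completion D)) := by
    rintro _ ⟨v, ⟨hv0, hv⟩, rfl⟩
    have := hv 0
    rwa [hv0] at this
  exact (hK.closure_subset_iff.2 h3) (h2 z)

end Vale.Agent.P352.H48

end
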