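import Vale.Agent.P352.H48.RS
import Vale.Agent.P352.H846.TnDefs

/-!
# P352 BWT: corollaries of the theorem of Reeh and Schlieder for closed subspaces
-/

set_option linter.all false

noncomputable section

open MeasureTheory Filter Topology

namespace Vale.Agent.P352.H48

open GF (Ix V Fn)
open H246
open UniformSpace (Completion)

variable {D : Type*} [NormedAddCommGroup D] [InnerProductSpace ℂ D]
variable {Q : GF.Theory D}

/-- all fields -/
theorem rs_fld {O : Set V} (hO : IsOpen O) (hne : O.Nonempty) (K : Submodule ℂ (Completion D))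
    (hK : IsClosed (K : Set (Completion D))) (h0 : (Q.vac : Completion D) ∈ K)
    (h1 : ∀ B f (v : D), Q.fld B → In O f → (v : Completion D) ∈ K →
      ((B f v : D) : Completion D) ∈ K) : K = ⊤ :=
  rs_sub (𝓕 := Q.fld) (fun _ h => h) (fun S h0 h => Q.cyclic S h0 h) hO hne K hK h0 h1

/-- the components of tensor fields -/
theorem rs_ten (hT : H846.TGen Q) {O : Set V} (hO : IsOpen O) (hne : O.Nonempty)
    (K : Submodule ℂ (Completion D))
    (hK : IsClosed (K : Set (Completion D))) (h0 : (Q.vac : Completion D) ∈ K)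
    (h1 : ∀ k d Φ μ f (v : D), H846.IsTen Q k d Φ → In O f → (v : Completion D) ∈ K →
      ((Φ μ f v : D) : Completion D) ∈ K) : K = ⊤ := by
  refine rs_sub (𝓕 := fun B => ∃ k d Φ μ, H846.IsTen Q k d Φ ∧ B = Φ μ) ?_ ?_ hO hne K hK h0 ?_
  · rintro B ⟨k, d, Φ, μ, hΦ, rfl⟩
    exact Q.bose_fld _ (hΦ.1 μ)
  · intro S hS h
    exact hT S hS fun k d Φ μ f v hΦ hf hv => h _ f v ⟨k, d, Φ, μ, hΦ, rfl⟩ hf hv
  · rintro B f v ⟨k, d, Φ, μ, hΦ, rfl⟩ hf hv
    exact h1 k d Φ μ f v hΦ hf hv

/-- two bounded operators that agree on the vacuum and whose coincidence set is stable under the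
tensor fields in `O` are equal -/
theorem rs_ten_op (hT : H846.TGen Q) {O : Set V} (hO : IsOpen O) (hne : O.Nonempty)
    {E : Type*} [NormedAddCommGroup E] [NormedSpace ℂ E] (Z Z' : Completion D →L[ℂ] E)
    (h0 : Z (Q.vac : Completion D) = Z' (Q.vac : Completion D))
    (h1 : ∀ k d Φ μ f (v : D), H846.IsTen Q k d Φ → In O f →
      Z (v : Completion D) = Z' (v : Completion D) →
      Z ((Φ μ f v : D) : Completion D) = Z' ((Φ μ f v : D) : Completion D)) : Z = Z' := by
  have h := rs_ten hT hO hne (LinearMap.eqLocus (Z : Completion D →ₗ[ℂ] E) Z')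
    (isClosed_eq Z.continuous Z'.continuous) h0 fun k d Φ μ f v hΦ hf hv =>
      h1 k d Φ μ f v hΦ hf hv
  ext z
  have : z ∈ LinearMap.eqLocus (Z : Completion D →ₗ[ℂ] E) Z' := by rw [h]; trivial
  exact this

/-- two bounded operators that agree on the vacuum and whose coincidence set is stable under the
fields in `O` are equal -/
theorem rs_fld_op {O : Set V} (hO : IsOpen O) (hne : O.Nonempty)
    {E : Type*} [NormedAddCommGroup E] [NormedSpace ℂ E] (Z Z' : Completion D →L[ℂ] E)
    (h0 : Z (Q.vac : Completion D) = Z' (Q.vac : Completion D))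
    (h1 : ∀ B f (v : D), Q.fld B → In O f →
      Z (v : Completion D) = Z' (v : Completion D) →
      Z ((B f v : D) : Completion D) = Z' ((B f v : D) : Completion D)) : Z = Z' := by
  have h := rs_fld (Q := Q) hO hne (LinearMap.eqLocus (Z : Completion D →ₗ[ℂ] E) Z')
    (isClosed_eq Z.continuous Z'.continuous) h0 fun B f v hB hf hv => h1 B f v hB hf hv
  ext z
  have : z ∈ LinearMap.eqLocus (Z : Completion D →ₗ[ℂ] E) Z' := by rw [h]; trivial
  exact this

/-- the region as a subspace, in the form with the fields of a class -/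
theorem dense_of_rs {𝓕 : GF.Fld D → Prop} (hF : ∀ B, 𝓕 B → Q.fld B)
    (hd : ∀ S : Submodule ℂ D, Q.vac ∈ S →
      (∀ B f v, 𝓕 B → GF.IsTest f → v ∈ S → B f v ∈ S) → Dense (S : Set D))
    {O : Set V} (hO : IsOpen O) (hne : O.Nonempty) (K : Submodule ℂ (Completion D))
    (h0 : (Q.vac : Completion D) ∈ K)
    (h1 : ∀ B f (v : D), 𝓕 B → In O f → (v : Completion D) ∈ K.topologicalClosure →
      ((B f v : D) : Completion D) ∈ K.topologicalClosure) :
    Dense (K : Set (Completion D)) := by
  have h := rs_sub hF hd hO hne K.topologicalClosure K.isClosed_topologicalClosure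
    (K.le_topologicalClosure h0) h1
  exact Submodule.dense_iff_topologicalClosure_eq_top.2 h

end Vale.Agent.P352.H48

end
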